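import Mathlib
import Vale.Agent.P219.Aff.Final
import Vale.Agent.P219.Aff.Cert5
import Vale.Agent.P219.Aff.Cert6
import Vale.Agent.P219.Aff.Cert7
import Vale.Agent.P219.Aff.Cert8
import Vale.Agent.P219.Aff.Cert9
import Vale.Agent.P219.Aff.Cert10
import Vale.Agent.P219.Aff.Cert11

/-! The Cartan–Hadamard isoperimetric inequality with the sharp constant in dimensions five to
eleven, for arbitrary metrics of nonpositive curvature. -/

open MeasureTheory Vale.Agent.P219

namespace Vale.Agent.Results.P219.SharpDimFiveToEleven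

theorem result :
    ∀ n : ℕ, n = 5 ∨ n = 6 ∨ n = 7 ∨ n = 8 ∨ n = 9 ∨ n = 10 ∨ n = 11 →
      (∀ G : Fin n → Fin n → Space n → ℝ,
        Coord.IsMetric G → Coord.SecLE G 0 → Coord.NormalCharts G →
        ∀ φ : Space n → ℝ, ContDiff ℝ 2 φ → Bornology.IsBounded {x | φ x < 0} →
          (∀ x, φ x = 0 → fderiv ℝ φ x ≠ 0) →
            ENNReal.ofReal
                ((n : ℝ) * (volume : Measure (Space n)).real (Metric.ball 0 1) ^ (n : ℝ)⁻¹ *
                  Coord.vol G {x | φ x < 0} ^ (1 - (n : ℝ)⁻¹)) ≤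
              Coord.per G {x | φ x < 0}) ∧
      Coord.IsMetric (Coord.flat n) ∧ Coord.SecLE (Coord.flat n) 0 ∧
        Coord.NormalCharts (Coord.flat n) := by
  intro n hn
  refine ⟨fun G hG hs hc φ hφ hb hr => ?_, Coord.flat_valid n⟩
  rcases hn with rfl | rfl | rfl | rfl | rfl | rfl | rfl
  · exact Aff.coord_sharp (by norm_num) Aff.cert5 hG hs hc hφ hb hr
  · exact Aff.coord_sharp (by norm_num) Aff.cert6 hG hs hc hφ hb hr
  · exact Aff.coord_sharp (by norm_num) Aff.cert7 hG hs hc hφ hb hr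
  · exact Aff.coord_sharp (by norm_num) Aff.cert8 hG hs hc hφ hb hr
  · exact Aff.coord_sharp (by norm_num) Aff.cert9 hG hs hc hφ hb hr
  · exact Aff.coord_sharpK (by norm_num) Aff.cert10 hG hs hc hφ hb hr
  · exact Aff.coord_sharpK (by norm_num) Aff.cert11 hG hs hc hφ hb hr

end Vale.Agent.Results.P219.SharpDimFiveToEleven
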