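import Vale.Agent.P219.Sharp.Final

namespace Vale.Agent.Results.P219.SharpRotSym

open Vale.Agent.P219.Sharp MeasureTheory Filter

/-- The sharp Cartan-Hadamard isoperimetric inequality for rotationally symmetric metrics, in
Brunn-Minkowski form, in every dimension and for every compact set. -/
theorem result : ∀ n : ℕ, 2 ≤ n → ∀ h : ℝ → ℝ, ContDiff ℝ 1 h →
    (∀ u : ℝ, 0 ≤ u → 0 < h u) → h 0 = 1 → (∀ u : ℝ, 0 ≤ u → deriv h u ≤ 0) →
    Tendsto (fun R : ℝ => ∫ t in (0 : ℝ)..R, h (t ^ 2)) atTop atTop →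
    ∀ K : Set (Sp n), IsCompact K → 0 < (gvol h).real K → ∀ δ : ℝ, 0 ≤ δ →
      (gvol h).real K ^ ((n : ℝ)⁻¹) + δ * omega n ^ ((n : ℝ)⁻¹)
          ≤ (gvol h).real (thick h δ K) ^ ((n : ℝ)⁻¹) ∧
      (n : ℝ) * omega n ^ ((n : ℝ)⁻¹) * (gvol h).real K ^ (((n : ℝ) - 1) / n) * δ
          ≤ (gvol h).real (thick h δ K) - (gvol h).real K := by
  intro n hn h h1 h2 h3 h4 h5 K hK hV δ hδ
  obtain ⟨k, rfl⟩ : ∃ k, n = k + 2 := ⟨n - 2, by omega⟩
  have hb := brunn_minkowski (k := k) ⟨h1, h2, h3, h4, h5⟩ hK hV hδ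
  rw [show ((k + 2 : ℕ) : ℝ) = (k : ℝ) + 2 by push_cast; ring]
  refine ⟨hb, ?_⟩
  set p := ((k : ℝ) + 2)⁻¹ with hp
  set V := (gvol h).real K
  set W := (gvol h).real (thick h δ K)
  set o := omega (k + 2) ^ p
  have ho : 0 ≤ o := Real.rpow_nonneg measureReal_nonneg _
  have hW : 0 ≤ W := measureReal_nonneg
  have ha : 0 < V ^ p := Real.rpow_pos_of_pos hV p
  have hpow : ∀ x : ℝ, 0 ≤ x → (x ^ p) ^ (k + 2) = x := fun x hx => by
    rw [← Real.rpow_natCast, ← Real.rpow_mul hx, hp]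
    push_cast
    rw [inv_mul_cancel₀ (by positivity), Real.rpow_one]
  have hq : 0 ≤ δ * o / V ^ p := by positivity
  have h6 := one_add_mul_le_pow (a := δ * o / V ^ p) (by linarith) (k + 2)
  have h7 := pow_le_pow_left₀ (by positivity) hb (k + 2)
  rw [hpow W hW, show V ^ p + δ * o = V ^ p * (1 + δ * o / V ^ p) by field_simp, mul_pow,
    hpow V hV.le] at h7
  have h8 := mul_le_mul_of_nonneg_left h6 hV.le
  have h9 : V ^ (((k : ℝ) + 2 - 1) / ((k : ℝ) + 2)) = V / V ^ p := by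
    rw [show ((k : ℝ) + 2 - 1) / ((k : ℝ) + 2) = 1 - p by rw [hp]; field_simp,
      Real.rpow_sub hV, Real.rpow_one]
  rw [h9]
  have h10 : V * (1 + ((k + 2 : ℕ) : ℝ) * (δ * o / V ^ p))
      = V + ((k : ℝ) + 2) * o * (V / V ^ p) * δ := by push_cast; ring
  linarith

end Vale.Agent.Results.P219.SharpRotSym
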