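import Vale.Agent.P219.Frame.Example
import Vale.Agent.P219.Frame.Group

/-!
# P219: the Cartan-Hadamard inequality for monotone triangular frames, in every dimension
-/

open MeasureTheory
open scoped ENNReal
open Vale.Agent.P219.Frame

namespace Vale.Agent.Results.P219.TriangularFrames

theorem result :
    (∀ n : ℕ, 2 ≤ n → ∀ a : Fin n → (Fin n → ℝ) → Fin n → ℝ, IsTriFrame a → MonotoneDiv a →
      ∀ E : Set (Fin n → ℝ), MeasurableSet E → Bornology.IsBounded E →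
        ENNReal.ofReal (n * unitBallVol n ^ ((n : ℝ)⁻¹) * gVol a E ^ (((n : ℝ) - 1) / n))
          ≤ gPer a E) ∧
    (∀ (n : ℕ) (D : Fin n → Fin n → ℝ), IsTriFrame (semiFrame D) ∧ MonotoneDiv (semiFrame D)) ∧
    (∀ (n : ℕ) (op : (Fin n → ℝ) → (Fin n → ℝ) → Fin n → ℝ) (B : Fin n → Fin n → ℝ),
      IsTriGroup op → (∀ k, 0 < B k k) → (∀ k j, j < k → B k j = 0) →
        IsTriFrame (leftFrame op B) ∧ MonotoneDiv (leftFrame op B) ∧
          ∀ k g h, leftFrame op B k (op g h) = fderiv ℝ (op g) h (leftFrame op B k h)) ∧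
    ∀ (n : ℕ) (φ : Fin n → ℝ → ℝ → ℝ), (∀ i, ContDiff ℝ 1 fun p : ℝ × ℝ => φ i p.1 p.2) →
      (∀ i y t, 0 < φ i y t) → (∀ i y, Monotone fun t => deriv (φ i y) t / φ i y t) →
        IsTriFrame (warpFrame φ) ∧ MonotoneDiv (warpFrame φ) :=
  ⟨fun _ hn _ ha hmono _ hE hb => isoperimetric hn ha hmono hE hb,
    fun _ D => ⟨isTriFrame_semiFrame D, monotoneDiv_semiFrame D⟩,
    fun _ _ _ hop hB hB0 => ⟨isTriFrame_leftFrame hop hB hB0, monotoneDiv_leftFrame hop hB hB0,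
      fun k g h => leftFrame_invariant hop k g h⟩,
    fun _ _ hφ hpos hlog =>
      ⟨isTriFrame_warpFrame hφ hpos, monotoneDiv_warpFrame hφ hpos hlog⟩⟩

end Vale.Agent.Results.P219.TriangularFrames
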