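import Mathlib
import Vale.Agent.P219.Univ.CoordBridge

/-! The generalised Cartan–Hadamard inequality up to a constant independent of the dimension,
the curvature bound and the manifold, which tends to `√(e / 2)` as the dimension grows. -/

open Vale.Agent.P219

namespace Vale.Agent.Results.P219.UniversalConstant

theorem result :
    (∀ n : ℕ, 2 ≤ n → Coord.Ineq n 17) ∧
    (∀ c : ℝ, Real.sqrt (Real.exp 1 / 2) < c → ∃ N : ℕ, ∀ n : ℕ, N ≤ n → Coord.Ineq n c) ∧
    ∀ n : ℕ, Coord.IsMetric (Coord.flat n) ∧ Coord.SecLE (Coord.flat n) 0 ∧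
      Coord.NormalCharts (Coord.flat n) :=
  ⟨fun _ hn => Coord.ineq hn (by norm_num) (Univ.cond17 hn),
    fun _ hc => (Univ.cond_eventually hc).imp fun _ h n hn =>
      Coord.ineq (h n hn).1 (h n hn).2.1 (h n hn).2.2,
    Coord.flat_valid⟩

end Vale.Agent.Results.P219.UniversalConstant
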